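import Vale.Agent.Lib.P147B.Defs
import Vale.Agent.Lib.P147B.Final

open MeasureTheory ProbabilityTheory Filter
open Vale.Agent.P147B

namespace Vale.Agent.Results.P147.AxisOrDiagonalRandom

/-- Directional zero-one law in every dimension `d ≥ 2`, for all directions, for the walk in an iid
elliptic random environment whose rows are random only along one coordinate axis or only along one
diagonal `e_i - e_j` or `e_i + e_j`. The environment is any iid family `row x = (r, l)` of random
vectors with positive entries summing to one, `r i` being the probability of the step `e_i` and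
`l i` that of `-e_i`; the annealed law of the walk from `0` exists, is unique, and gives every
escape event `{X_n · ℓ → +∞}` probability zero or one. -/
theorem result (d : ℕ) (hd : 2 ≤ d) {Ω : Type*} [MeasurableSpace Ω] (P : Measure Ω)
    [IsProbabilityMeasure P] (row : (Fin d → ℤ) → Ω → (Fin d → ℝ) × (Fin d → ℝ))
    (hm : ∀ x, Measurable (row x)) (hind : iIndepFun row P)
    (hid : ∀ x, IdentDistrib (row x) (row 0) P P)
    (hell : ∀ᵐ ω ∂P, (∀ i, 0 < (row 0 ω).1 i ∧ 0 < (row 0 ω).2 i) ∧
      ∑ i, ((row 0 ω).1 i + (row 0 ω).2 i) = 1)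
    (hline : (∃ i, AlongAxis P (row 0) i) ∨ (∃ i j, AlongDiagonal P (row 0) i j) ∨
      ∃ i j, AlongAntidiagonal P (row 0) i j) :
    (∃! Q, IsAnnealedLaw P row Q) ∧
      ∀ Q, IsAnnealedLaw P row Q → ∀ ℓ : Fin d → ℝ,
        Q {X | Tendsto (fun n => ∑ i, ℓ i * (X n i : ℝ)) atTop atTop} = 0 ∨
        Q {X | Tendsto (fun n => ∑ i, ℓ i * (X n i : ℝ)) atTop atTop} = 1 :=
  final d hd P row hm hind hid hell hline

end Vale.Agent.Results.P147.AxisOrDiagonalRandom
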