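import Mathlib
import Vale.Agent.Lib.P147.Defs
import Vale.Agent.Lib.P147.Main

open MeasureTheory ProbabilityTheory Filter
open Vale.Agent.P147

namespace Vale.Agent.Results.P147.OneDimRandomness

/-- Directional zero-one law in every dimension `d ≥ 2` (in particular every `d ≥ 3`) and for every
direction `ℓ`, for every iid elliptic environment law `μ` whose randomness is one-dimensional:
for some nonzero lattice vector `w`, given that the step leaves the line `x + ℤ w`, the class modulo
`ℤ w` of the step has a deterministic law. -/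
theorem result (d : ℕ) (hd : 2 ≤ d) (μ : Measure (Row d)) [IsProbabilityMeasure μ]
    (hell : ∀ᵐ p ∂μ, ∀ e : Step d, 0 < p.1 e)
    (w : Fin d → ℤ) (hw : w ≠ 0) (hone : RandomOnlyAlong μ w)
    (ℓ : Fin d → ℝ) :
    annealed μ 0 (escape ℓ) = 0 ∨ annealed μ 0 (escape ℓ) = 1 :=
  zero_one μ hd hw hell hone ℓ

end Vale.Agent.Results.P147.OneDimRandomness
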